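import Mathlib

/-!
Amitsur: over an uncountable central field matrices over an algebraic division algebra are
algebraic.
-/

open Polynomial

universe u

namespace Vale.Agent.P199.Norm

variable {F D : Type u} [Field F] [DivisionRing D] [Algebra F D]

/-- A finitely generated subalgebra is spanned by a countable set. -/
theorem countable_span_adjoin (s : Finset D) :
    ∃ t : Set D, t.Countable ∧
      Subalgebra.toSubmodule (Algebra.adjoin F (s : Set D)) = Submodule.span F t := by
  refine ⟨Submonoid.closure (s : Set D), ?_, Algebra.adjoin_eq_span F _⟩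
  rw [Submonoid.closure_eq_mrange, MonoidHom.coe_mrange]
  refine (Set.countable_range fun l : List (s : Set D) => (l.map Subtype.val).prod).mono ?_
  rintro _ ⟨x, rfl⟩
  exact ⟨FreeMonoid.toList x, by simp [FreeMonoid.lift_apply]⟩

variable [Algebra.IsAlgebraic F D]

/-- Subalgebras of an algebraic division algebra contain inverses. -/
theorem inv_mem_subalgebra (A : Subalgebra F D) {x : D} (hx : x ∈ A) : x⁻¹ ∈ A := by
  by_cases h0 : x = 0
  · simp [h0]
  have hint : IsIntegral F x := (Algebra.IsAlgebraic.isAlgebraic x).isIntegral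
  set f := minpoly F x
  have h := congrArg (aeval x) (X_mul_divX_add f)
  simp only [map_add, map_mul, aeval_X, aeval_C, f, minpoly.aeval] at h
  have hc : (minpoly F x).coeff 0 ≠ 0 := minpoly.coeff_zero_ne_zero hint h0
  have h2 : x * ((-((minpoly F x).coeff 0))⁻¹ • aeval x (minpoly F x).divX) = 1 := by
    rw [mul_smul_comm, eq_neg_of_add_eq_zero_left h, ← map_neg, Algebra.smul_def, ← map_mul,
      inv_mul_cancel₀ (neg_ne_zero.mpr hc), map_one]
  rw [inv_eq_of_mul_eq_one_right h2]
  refine A.smul_mem ?_ _
  exact Algebra.adjoin_le (Set.singleton_subset_iff.mpr hx) (aeval_mem_adjoin_singleton F x)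

/-- Amitsur's theorem. -/
theorem isAlgebraic_end_of_uncountable [Uncountable F] (m : ℕ)
    (T : Module.End D (Fin m → D)) : IsAlgebraic F T := by
  classical
  let s : Finset D := Finset.univ.image fun q : Fin m × Fin m => T (Pi.single q.1 1) q.2
  let A := Algebra.adjoin F (s : Set D)
  obtain ⟨t, ht, hspan⟩ := countable_span_adjoin (F := F) s
  let _ : DivisionRing A := DivisionRing.ofIsUnitOrEqZero fun a => by
    by_cases h : a = 0
    · exact Or.inr h
    · have h' : (a : D) ≠ 0 := fun e => h (Subtype.ext e)
      exact Or.inl ⟨⟨a, ⟨_, inv_mem_subalgebra A a.2⟩, Subtype.ext (mul_inv_cancel₀ h'),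
        Subtype.ext (inv_mul_cancel₀ h')⟩, rfl⟩
  let Tl : F → Module.End D (Fin m → D) := fun l => T - algebraMap F _ l
  let bad : Set F := {l | ¬Function.Injective (Tl l)}
  have hbad : bad.Finite := by
    have hind : iSupIndep fun l : F => LinearMap.ker (Tl l) := by
      let T' : Module.End F (Fin m → D) := T.restrictScalars F
      intro l
      rw [disjoint_iff, eq_bot_iff]
      rintro x ⟨h1, h2⟩
      have hd := Module.End.eigenspaces_iSupIndep T' l
      rw [disjoint_iff, eq_bot_iff] at hd
      have hk : ∀ k : F, (LinearMap.ker (Tl k)).restrictScalars F = T'.eigenspace k := by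
        intro k
        ext y
        simp [Tl, T', sub_eq_zero]
      refine hd ⟨hk l ▸ h1, ?_⟩
      have h3 : x ∈ (⨆ k, ⨆ _ : k ≠ l, LinearMap.ker (Tl k)).restrictScalars F := h2
      simp only [Submodule.restrictScalars_iSup, hk] at h3
      exact h3
    have : Finite {l : F // LinearMap.ker (Tl l) ≠ ⊥} :=
      @Fintype.finite _ hind.fintypeNeBotOfFiniteDimensional
    refine (@Set.toFinite F {l : F | LinearMap.ker (Tl l) ≠ ⊥} this).subset ?_
    intro l hl h
    exact hl (LinearMap.ker_eq_bot.mp h)
  have hgood : ∀ l ∉ bad, ∀ i : Fin m, ∃ v : Fin m → A,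
      Tl l (fun k => (v k : D)) = Pi.single i 1 := by
    intro l hl i
    let M : Fin m → Fin m → A := fun i k =>
      ⟨Tl l (Pi.single i 1) k, by
        simp only [Tl, LinearMap.sub_apply, Pi.sub_apply, Module.algebraMap_end_apply]
        refine sub_mem (Algebra.subset_adjoin ?_) ?_
        · simp only [s, Finset.coe_image, Set.mem_image]
          exact ⟨(i, k), by simp, rfl⟩
        · simp only [Pi.smul_apply, Pi.single_apply]
          exact A.smul_mem (by split_ifs <;> simp) l⟩
    let TA : (Fin m → A) →ₗ[A] (Fin m → A) :=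
      { toFun := fun v k => ∑ i, v i * M i k
        map_add' := fun v w => by funext k; simp [add_mul, Finset.sum_add_distrib]
        map_smul' := fun c v => by funext k; simp [Finset.mul_sum, mul_assoc] }
    have hTA : ∀ v, (fun k => (TA v k : D)) = Tl l fun k => (v k : D) := by
      intro v
      conv_rhs => rw [pi_eq_sum_univ' (fun k => (v k : D))]
      funext k
      simp [TA, M, map_sum]
    have hinj : Function.Injective TA := fun v w e => by
      have e2 : Tl l (fun k => (v k : D)) = Tl l (fun k => (w k : D)) := by rw [← hTA, ← hTA, e]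
      funext k
      exact Subtype.ext (congrFun ((not_not.mp hl) e2) k)
    obtain ⟨v, hv⟩ := LinearMap.injective_iff_surjective.mp hinj (Pi.single i 1)
    refine ⟨v, ?_⟩
    rw [← hTA, hv]
    funext k
    by_cases hk : k = i <;> simp [hk]
  choose g hg using hgood
  -- The inverses live in a space of countable dimension.
  let V := Submodule.span F t
  let G : (↥(badᶜ : Set F)) → Fin m → Fin m → V := fun l i k =>
    ⟨g l.1 l.2 i k, by
      change _ ∈ Submodule.span F t
      rw [← hspan]
      exact (g l.1 l.2 i k).2⟩
  have hnot : ¬LinearIndependent F G := by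
    intro hind
    have : Countable t := ht.to_subtype
    let b : Module.Basis _ F (Fin m → Fin m → V) :=
      Module.Basis.ofVectorSpace F (Fin m → Fin m → V)
    have hrank : Module.rank F (Fin m → Fin m → V) ≤ Cardinal.aleph0 := by
      have hV : Module.rank F V ≤ Cardinal.aleph0 :=
        (rank_span_le t).trans (Cardinal.le_aleph0_iff_set_countable.mpr ht)
      have hpow : ∀ (W : Type u) [AddCommGroup W] [Module F W],
          Module.rank F W ≤ Cardinal.aleph0 → Module.rank F (Fin m → W) ≤ Cardinal.aleph0 := by
        intro W _ _ hW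
        rw [rank_fun_eq_lift_mul]
        refine le_trans (mul_le_mul' (Cardinal.natCast_lt_aleph0).le ?_)
          (le_of_eq Cardinal.aleph0_mul_aleph0)
        simpa using hW
      exact hpow _ (hpow _ hV)
    have hc := hind.cardinal_le_rank.trans hrank
    rw [Cardinal.le_aleph0_iff_set_countable] at hc
    exact not_countable (α := F)
      (Set.countable_univ_iff.mp (Set.union_compl_self bad ▸ hbad.countable.union hc))
  obtain ⟨S, c, hsum, l₀, hl₀, hc₀⟩ := not_linearIndependent_iff.mp hnot
  let P : F[X] := ∑ l ∈ S, C (c l) * ∏ k ∈ S.erase l, (X - C (k : F))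
  refine ⟨P, ?_, ?_⟩
  · intro h0
    have h1 := congrArg (eval (l₀ : F)) h0
    simp only [P, eval_finsetSum, eval_zero, eval_mul, eval_C, eval_prod, eval_sub, eval_X] at h1
    rw [Finset.sum_eq_single l₀ (fun l _ hne => by
      rw [Finset.prod_eq_zero (Finset.mem_erase.mpr ⟨Ne.symm hne, hl₀⟩) (sub_self _), mul_zero])
      (fun h => absurd hl₀ h), mul_eq_zero] at h1
    refine h1.elim hc₀ fun h => ?_
    obtain ⟨k, hk, e⟩ := Finset.prod_eq_zero_iff.mp h
    exact (Finset.mem_erase.mp hk).1 (Subtype.ext (sub_eq_zero.mp e).symm)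
  · refine LinearMap.pi_ext' fun i => LinearMap.ext_ring ?_
    simp only [LinearMap.comp_apply, LinearMap.coe_single, LinearMap.zero_apply]
    have hterm : ∀ l ∈ S, aeval T (∏ k ∈ S, (X - C (k : F))) (fun k => (g l.1 l.2 i k : D))
        = aeval T (∏ k ∈ S.erase l, (X - C (k : F))) (Pi.single i 1) := by
      intro l hl
      have haev : aeval T (X - C (l.1 : F)) = Tl l.1 := by simp [Tl]
      rw [← Finset.prod_erase_mul _ _ hl, map_mul, Module.End.mul_apply, haev, hg l.1 l.2 i]
    have hz : ∑ l ∈ S, c l • (fun k => (g l.1 l.2 i k : D)) = 0 := by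
      funext k
      have := congrArg Subtype.val (congrFun (congrFun hsum i) k)
      simpa [G, Finset.sum_apply] using this
    calc aeval T P (Pi.single i 1)
        = ∑ l ∈ S, c l • aeval T (∏ k ∈ S.erase l, (X - C (k : F))) (Pi.single i 1) := by
          simp [P, Module.algebraMap_end_apply]
      _ = aeval T (∏ k ∈ S, (X - C (k : F))) (∑ l ∈ S, c l • fun k => (g l.1 l.2 i k : D)) := by
          rw [map_sum]
          refine Finset.sum_congr rfl fun l hl => ?_
          rw [LinearMap.map_smul_of_tower, hterm l hl]
      _ = 0 := by rw [hz, map_zero]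

end Vale.Agent.P199.Norm
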