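import Vale.Agent.P199.Norm.Main

/-!
A maximal separable subfield is self centralising, so bounded separable degrees give finite
dimension.
-/

open TensorProduct Module Polynomial

universe u

namespace Vale.Agent.P199.Norm

variable {F D : Type u} [Field F] [DivisionRing D] [Algebra F D] [Algebra.IsCentral F D]

theorem center_tensor (K : Type u) [Field K] [Algebra F K] (c : D ⊗[F] K)
    (hc : ∀ r, c * r = r * c) : ∃ k : K, c = (1 : D) ⊗ₜ[F] k := by
  classical
  let v := Module.Basis.ofVectorSpace F K
  let b := Algebra.TensorProduct.basis D v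
  have hb : ∀ i, b i = (1 : D) ⊗ₜ[F] v i := fun i => Algebra.TensorProduct.basis_apply _ i
  have hsm : ∀ (y : D) (x : D ⊗[F] K), y • x = (y ⊗ₜ[F] (1 : K)) * x := by
    intro y x
    induction x using TensorProduct.induction_on with
    | zero => simp
    | tmul a l => simp [TensorProduct.smul_tmul']
    | add a c ha hc => rw [smul_add, mul_add, ha, hc]
  have hrec : c = ∑ i ∈ (b.repr c).support, b.repr c i • b i := by
    conv_lhs => rw [← b.linearCombination_repr c]
    rw [Finsupp.linearCombination_apply, Finsupp.sum]
  have hy : ∀ (y : D) i, y * b.repr c i = b.repr c i * y := by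
    intro y i
    have h1 : y • c = Finsupp.linearCombination D b ((b.repr c).mapRange (· * y) (zero_mul y)) := by
      rw [hsm, ← hc, Finsupp.linearCombination_apply, Finsupp.sum_mapRange_index (fun i => by simp),
        Finsupp.sum]
      conv_lhs => rw [hrec, Finset.sum_mul]
      refine Finset.sum_congr rfl fun j _ => ?_
      rw [hsm, hsm, hb]
      simp
    have := congrArg (fun z => b.repr z i) h1
    simpa [b.repr_linearCombination] using this
  choose e he using fun i => Algebra.mem_bot.mp (Algebra.IsCentral.out (K := F)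
    (show b.repr c i ∈ Subalgebra.center F D from
      Subalgebra.mem_center_iff.mpr fun y => hy y i))
  refine ⟨∑ i ∈ (b.repr c).support, e i • v i, ?_⟩
  rw [tmul_sum]
  conv_lhs => rw [hrec]
  refine Finset.sum_congr rfl fun i _ => ?_
  rw [← he i, algebraMap_smul, hb, ← tmul_smul]

variable [Algebra.IsAlgebraic F D]

theorem finrank_le_sq (d : ℕ) (hd : ∀ a : D, IsSeparable F a → (minpoly F a).natDegree ≤ d) :
    FiniteDimensional F D ∧ finrank F D ≤ d ^ 2 := by
  classical
  let P : ℕ → Prop := fun n => ∃ a : D, IsSeparable F a ∧ (minpoly F a).natDegree = n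
  have hone : IsSeparable F (1 : D) := by
    unfold IsSeparable
    rw [minpoly.one F D]
    exact separable_X_sub_C (x := (1 : F))
  have hP1 : P (minpoly F (1 : D)).natDegree := ⟨1, hone, rfl⟩
  have hex : P (Nat.findGreatest P d) := Nat.findGreatest_spec (hd 1 hone) hP1
  have hmax : ∀ x : D, IsSeparable F x → (minpoly F x).natDegree ≤ Nat.findGreatest P d :=
    fun x hx => Nat.le_findGreatest (hd x hx) ⟨x, hx, rfl⟩
  obtain ⟨a, hsep, ha⟩ := hex
  rw [← ha] at hmax
  have hn : (minpoly F a).natDegree ≤ d := hd a hsep
  have hint : IsIntegral F a := (Algebra.IsAlgebraic.isAlgebraic a).isIntegral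
  set f := minpoly F a with hf
  have : Fact (Irreducible f) := ⟨minpoly.irreducible hint⟩
  let K := AdjoinRoot f
  let pb := AdjoinRoot.powerBasis (minpoly.ne_zero hint)
  have hKdim : finrank F K = f.natDegree := by
    rw [pb.finrank, AdjoinRoot.powerBasis_dim]
  have : FiniteDimensional F K := pb.finite
  let φ : K →ₐ[F] D := Ideal.Quotient.liftₐ _ (aeval a) fun r hr => by
    obtain ⟨q, rfl⟩ := Ideal.mem_span_singleton.mp hr
    rw [map_mul, show aeval a f = 0 from minpoly.aeval F a, zero_mul]
  let gK : K →ₐ[F] Module.End F D :=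
    { toFun := fun k => LinearMap.mulRight F (φ k)
      map_one' := by ext; simp
      map_mul' := fun x y => by
        rw [mul_comm x y]; ext v; simp [mul_assoc]
      map_zero' := by ext; simp
      map_add' := fun x y => by ext; simp [mul_add]
      commutes' := fun c => by ext v; simp [Algebra.smul_def, Algebra.commutes] }
  let ρ : D ⊗[F] K →ₐ[F] Module.End F D :=
    Algebra.TensorProduct.lift (Algebra.lsmul F F D) gK fun c k =>
      LinearMap.ext fun v => (mul_assoc c v (φ k)).symm
  let _ : Module (D ⊗[F] K) D := Module.compHom D ρ.toRingHom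
  have hρ : ∀ (c : D) (k : K) (v : D), (c ⊗ₜ[F] k) • v = c * (v * φ k) := fun c k v => by
    change ρ (c ⊗ₜ[F] k) v = _
    simp only [ρ]
    rfl
  have : IsScalarTower D (D ⊗[F] K) D := ⟨fun c r v => by
    induction r using TensorProduct.induction_on with
    | zero => simp
    | tmul e k => rw [TensorProduct.smul_tmul', hρ, hρ]; simp [mul_assoc]
    | add e g he hg => rw [smul_add, add_smul, add_smul, he, hg, smul_add]⟩
  let R := D ⊗[F] K
  have : IsScalarTower F (D ⊗[F] K) D := ⟨fun c r v => by
    change ρ (c • r) v = c • ρ r v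
    rw [map_smul, LinearMap.smul_apply]⟩
  have : SMulCommClass (D ⊗[F] K) F D := ⟨fun r c v => by
    change ρ r (c • v) = c • ρ r v
    rw [map_smul]⟩
  have hR := isSimpleRing_tensor F D K
  have := isSemisimpleRing_tensor F D K
  have := isArtinianRing_tensor F D K
  have hsimple : IsSimpleModule (D ⊗[F] K) D := isSimpleModule_iff _ _ |>.mpr
    { exists_pair_ne := ⟨⊥, ⊤, bot_ne_top⟩
      eq_bot_or_eq_top := fun U => by
        refine or_iff_not_imp_left.mpr fun hU => ?_
        obtain ⟨u, hu, hu0⟩ := Submodule.exists_mem_ne_zero_of_ne_bot hU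
        refine eq_top_iff.mpr fun w _ => ?_
        have h := U.smul_mem ((w * u⁻¹) ⊗ₜ[F] (1 : K)) hu
        rwa [hρ, map_one, mul_one, mul_assoc, inv_mul_cancel₀ hu0, mul_one] at h }
  -- the centraliser
  let E := Module.End (D ⊗[F] K) D
  let θ : K →ₐ[F] E :=
    { toFun := fun k =>
        { toFun := fun v => ((1 : D) ⊗ₜ[F] k) • v
          map_add' := smul_add _
          map_smul' := fun r v => by
            rw [← mul_smul, RingHom.id_apply, ← mul_smul]
            congr 1
            induction r using TensorProduct.induction_on with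
            | zero => simp
            | tmul e l => simp [mul_comm k l]
            | add e g he hg => rw [mul_add, add_mul, he, hg] }
      map_one' := LinearMap.ext fun v => by
        change ((1 : D) ⊗ₜ[F] (1 : K)) • v = v
        rw [← Algebra.TensorProduct.one_def, one_smul]
      map_mul' := fun x y => LinearMap.ext fun v => by
        change ((1 : D) ⊗ₜ[F] (x * y)) • v = ((1 : D) ⊗ₜ[F] x) • ((1 : D) ⊗ₜ[F] y) • v
        rw [← mul_smul, Algebra.TensorProduct.tmul_mul_tmul, mul_one]
      map_zero' := LinearMap.ext fun v => by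
        change ((1 : D) ⊗ₜ[F] (0 : K)) • v = 0
        simp
      map_add' := fun x y => LinearMap.ext fun v => by
        change ((1 : D) ⊗ₜ[F] (x + y)) • v = ((1 : D) ⊗ₜ[F] x) • v + ((1 : D) ⊗ₜ[F] y) • v
        rw [TensorProduct.tmul_add, add_smul]
      commutes' := fun c => LinearMap.ext fun v => by
        change ((1 : D) ⊗ₜ[F] algebraMap F K c) • v = c • v
        rw [hρ, one_mul, φ.commutes, Algebra.smul_def, Algebra.commutes] }
  let _ : Algebra K E := θ.toRingHom.toAlgebra' fun k x => LinearMap.ext fun v => by
    change ((1 : D) ⊗ₜ[F] k) • x v = x (((1 : D) ⊗ₜ[F] k) • v)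
    rw [map_smul]
  have : IsScalarTower F K E := IsScalarTower.of_algebraMap_eq fun c => (θ.commutes c).symm
  have hev : ∀ (x : E) (v : D), x v = v * x 1 := fun x v => by
    have h := x.map_smul (v ⊗ₜ[F] (1 : K)) 1
    rw [hρ, hρ, map_one, mul_one, mul_one] at h
    simpa using h
  have haev : ∀ (x : E) (r : F[X]) , (aeval x r) (1 : D) = aeval (x 1) r := by
    intro x r
    have hpow : ∀ i : ℕ, (x ^ i) (1 : D) = (x 1) ^ i := fun i => by
      induction i with
      | zero => rw [pow_zero, pow_zero]; rfl
      | succ i ih => rw [pow_succ', Module.End.mul_apply, ih, hev x, pow_succ]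
    induction r using Polynomial.induction_on' with
    | add r s hr hs =>
      rw [map_add, map_add]
      exact congrArg₂ (· + ·) hr hs
    | monomial i c =>
      rw [aeval_monomial, aeval_monomial, ← Algebra.smul_def, ← Algebra.smul_def, ← hpow]
      rfl
  have : Algebra.IsAlgebraic K E := ⟨fun x => by
    obtain ⟨r, hr, h0⟩ := Algebra.IsAlgebraic.isAlgebraic (R := F) (x (1 : D))
    refine IsAlgebraic.tower_top K ⟨r, hr, LinearMap.ext fun v => ?_⟩
    rw [hev (aeval x r) v, haev, h0, mul_zero]; rfl⟩
  have : Nontrivial (D ⊗[F] K) := IsSimpleRing.instNontrivial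
  obtain ⟨m, -, Q, hQ, ⟨e₀⟩⟩ := (IsSimpleRing.isIsotypic (D ⊗[F] K) (D ⊗[F] K)).linearEquiv_fun
  obtain ⟨e₁⟩ : Nonempty (Q ≃ₗ[D ⊗[F] K] D) := by
    obtain ⟨I, ⟨h1⟩⟩ :=
      IsSemisimpleRing.exists_linearEquiv_ideal_of_isSimpleModule (D ⊗[F] K) D
    have : IsSimpleModule (D ⊗[F] K) I := IsSimpleModule.congr h1.symm
    exact ⟨((IsSimpleRing.isIsotypic (D ⊗[F] K) (D ⊗[F] K)) I Q).some.trans h1.symm⟩
  let e : (D ⊗[F] K) ≃ₗ[D ⊗[F] K] (Fin m → D) :=
    e₀.trans (LinearEquiv.piCongrRight fun _ => e₁)
  have hm : m = f.natDegree := by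
    have h1 : finrank D (D ⊗[F] K) = finrank F K := by
      rw [Module.finrank_eq_card_basis
        (Algebra.TensorProduct.basis D (Module.finBasis F K)), Fintype.card_fin]
    rw [(e.restrictScalars D).finrank_eq, hKdim] at h1
    simpa using h1
  let entry : ((Fin m → D) →ₗ[D ⊗[F] K] (Fin m → D)) → Fin m → Fin m → E := fun h i j =>
    (LinearMap.proj j).comp (h.comp (LinearMap.single (D ⊗[F] K) (fun _ => D) i))
  have hentry : ∀ (h : (Fin m → D) →ₗ[D ⊗[F] K] (Fin m → D)) (w : Fin m → D) (j : Fin m),
      h w j = ∑ i, entry h i j (w i) := by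
    intro h w j
    conv_lhs => rw [← Finset.univ_sum_single w]
    rw [map_sum, Finset.sum_apply]
    rfl
  have : Algebra.IsCentral K E := ⟨fun x hx => by
    rw [Subalgebra.mem_center_iff] at hx
    let Φ : (D ⊗[F] K) →ₗ[D ⊗[F] K] (D ⊗[F] K) :=
      e.symm.toLinearMap.comp ((LinearMap.pi fun j => x.comp (LinearMap.proj j)).comp e.toLinearMap)
    have hΦ : ∀ r t, Φ (r * t) = Φ r * t := by
      intro r t
      let M : (D ⊗[F] K) →ₗ[D ⊗[F] K] (D ⊗[F] K) := LinearMap.toSpanSingleton _ _ t
      let h := e.toLinearMap.comp (M.comp e.symm.toLinearMap)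
      have hcomm : ∀ w, h (fun j => x (w j)) = fun j => x (h w j) := fun w => funext fun j => by
        rw [hentry, hentry h w j, map_sum]
        exact Finset.sum_congr rfl fun i _ => LinearMap.congr_fun (hx (entry h i j)) (w i)
      have h1 := hcomm (e r)
      have h2 : h (e r) = e (r * t) := by
        change e (e.symm (e r) * t) = _
        rw [e.symm_apply_apply]
      rw [h2] at h1
      apply e.injective
      simp only [Φ, LinearMap.comp_apply, LinearEquiv.coe_coe, e.apply_symm_apply]
      exact h1.symm
    have hc : ∀ r, Φ 1 * r = r * Φ 1 := fun r => by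
      rw [← hΦ, one_mul, ← smul_eq_mul, ← map_smul, smul_eq_mul, mul_one]
    obtain ⟨k, hk⟩ := center_tensor K (Φ 1) hc
    refine Algebra.mem_bot.mpr ⟨k, LinearMap.ext fun v => ?_⟩
    have h0 : f.natDegree ≠ 0 := (minpoly.natDegree_pos hint).ne'
    let i₀ : Fin m := ⟨0, by omega⟩
    let w : Fin m → D := fun _ => v
    have h1 : Φ (e.symm w) = ((1 : D) ⊗ₜ[F] k) • e.symm w := by
      rw [show e.symm w = e.symm w • (1 : D ⊗[F] K) by simp, map_smul, hk, smul_eq_mul,
        smul_eq_mul, smul_eq_mul, mul_one, ← hk, ← hc]
    have h2 := congrFun (congrArg e h1) i₀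
    rw [map_smul] at h2
    simp only [Φ, LinearMap.comp_apply, LinearEquiv.coe_coe, e.apply_symm_apply,
      LinearMap.pi_apply, LinearMap.proj_apply, Pi.smul_apply, w] at h2
    exact h2.symm⟩
  -- maximality
  have hE : ∀ x : E, x ∈ (⊥ : Subalgebra K E) := by
    by_contra hne
    push Not at hne
    obtain ⟨x, hx⟩ := hne
    obtain ⟨y, hy, hys⟩ := JacobsonNoether.exists_separable_and_not_isCentral'
      (L := K) (D := E) fun h => hx (h ▸ trivial)
    have hyint : IsIntegral K y := (Algebra.IsAlgebraic.isAlgebraic y).isIntegral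
    let r := minpoly K y
    have : Fact (Irreducible r) := ⟨minpoly.irreducible hyint⟩
    let K2 := AdjoinRoot r
    let pb2 := AdjoinRoot.powerBasis (minpoly.ne_zero hyint)
    have : FiniteDimensional K K2 := pb2.finite
    have : FiniteDimensional F K2 := FiniteDimensional.trans F K K2
    have : Algebra.IsSeparable F K := by
      have hr : IsSeparable F (AdjoinRoot.root f) := by
        unfold IsSeparable
        rw [AdjoinRoot.minpoly_root (minpoly.ne_zero hint), (minpoly.monic hint).leadingCoeff,
          inv_one, map_one, mul_one]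
        exact hsep
      have := (IntermediateField.isSeparable_adjoin_simple_iff_isSeparable F K).mpr hr
      rw [IntermediateField.adjoin_root_eq_top] at this
      exact AlgEquiv.Algebra.isSeparable IntermediateField.topEquiv
    have : Algebra.IsSeparable K K2 := by
      have hr : IsSeparable K (AdjoinRoot.root r) := by
        unfold IsSeparable
        rw [AdjoinRoot.minpoly_root (minpoly.ne_zero hyint), (minpoly.monic hyint).leadingCoeff,
          inv_one, map_one, mul_one]
        exact hys
      have := (IntermediateField.isSeparable_adjoin_simple_iff_isSeparable K K2).mpr hr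
      rw [IntermediateField.adjoin_root_eq_top] at this
      exact AlgEquiv.Algebra.isSeparable IntermediateField.topEquiv
    have : Algebra.IsSeparable F K2 := Algebra.IsSeparable.trans F K K2
    obtain ⟨β, hβ⟩ := Field.exists_primitive_element F K2
    let φ2 : K2 →ₐ[K] E := Ideal.Quotient.liftₐ _ (aeval y) fun t ht => by
      obtain ⟨q, rfl⟩ := Ideal.mem_span_singleton.mp ht
      rw [map_mul, show aeval y r = 0 from minpoly.aeval K y, zero_mul]
    have hφ2 : Function.Injective φ2 := φ2.toRingHom.injective
    have hdeg : (minpoly F (φ2 β (1 : D))) = minpoly F β := by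
      refine (minpoly.eq_of_irreducible_of_monic (minpoly.irreducible
        (Algebra.IsAlgebraic.isAlgebraic β).isIntegral) ?_
        (minpoly.monic (Algebra.IsAlgebraic.isAlgebraic β).isIntegral)).symm
      rw [← haev, show aeval (φ2 β) (minpoly F β) = (φ2.restrictScalars F) (aeval β (minpoly F β))
        from aeval_algHom_apply (φ2.restrictScalars F) β _, minpoly.aeval, map_zero]
      rfl
    have h1 := hmax _ (show IsSeparable F (φ2 β (1 : D)) by
      unfold IsSeparable; rw [hdeg]; exact Algebra.IsSeparable.isSeparable F β)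
    rw [hdeg] at h1
    have h2 : (minpoly F β).natDegree = finrank F K2 := by
      rw [← IntermediateField.adjoin.finrank (Algebra.IsAlgebraic.isAlgebraic β).isIntegral, hβ,
        IntermediateField.finrank_top']
    rw [h2, ← Module.finrank_mul_finrank F K K2, hKdim, pb2.finrank,
      AdjoinRoot.powerBasis_dim] at h1
    have h3 : 2 ≤ r.natDegree :=
      (minpoly.two_le_natDegree_iff hyint).mpr fun h => hy (Algebra.mem_bot.mpr h)
    have h4 := minpoly.natDegree_pos hint
    nlinarith
  -- dimension count
  choose κ hκ using fun x => Algebra.mem_bot.mp (hE x)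
  let mul : (D ⊗[F] K) → Fin m → Fin m → K := fun t i j =>
    κ (entry (e.toLinearMap.comp ((LinearMap.toSpanSingleton _ _ t).comp e.symm.toLinearMap)) i j)
  have hinjθ : Function.Injective (algebraMap K E) := (algebraMap K E).injective
  let mulL : (D ⊗[F] K) →ₗ[F] Fin m → Fin m → K :=
    { toFun := mul
      map_add' := fun s t => by
        funext i j
        apply hinjθ
        simp only [mul, Pi.add_apply, map_add, hκ]
        refine LinearMap.ext fun v => ?_
        change e (e.symm (Pi.single i v) * (s + t)) j =
          e (e.symm (Pi.single i v) * s) j + e (e.symm (Pi.single i v) * t) j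
        rw [mul_add, map_add]
        rfl
      map_smul' := fun c t => by
        funext i j
        apply hinjθ
        simp only [mul, RingHom.id_apply, Pi.smul_apply, Algebra.smul_def, map_mul, hκ]
        rw [← IsScalarTower.algebraMap_apply F K E, ← Algebra.smul_def, ← Algebra.smul_def]
        refine LinearMap.ext fun v => ?_
        change e.toLinearMap (e.symm (Pi.single i v) * (c • t)) j =
          c • (e.toLinearMap (e.symm (Pi.single i v) * t) j)
        rw [mul_smul_comm, e.toLinearMap.map_smul_of_tower]
        rfl }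
  have hinj : Function.Injective mulL := by
    intro s t hst
    have h : ∀ i j, entry (e.toLinearMap.comp ((LinearMap.toSpanSingleton _ _ s).comp
          e.symm.toLinearMap)) i j =
        entry (e.toLinearMap.comp ((LinearMap.toSpanSingleton _ _ t).comp
          e.symm.toLinearMap)) i j := fun i j =>
      (hκ _).symm.trans ((congrArg _ (congrFun (congrFun hst i) j)).trans (hκ _))
    have hh : ∀ w, e ((e.symm w) * s) = e ((e.symm w) * t) := fun w => funext fun j => by
      have h1 := hentry (e.toLinearMap.comp ((LinearMap.toSpanSingleton _ _ s).comp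
        e.symm.toLinearMap)) w j
      have h2 := hentry (e.toLinearMap.comp ((LinearMap.toSpanSingleton _ _ t).comp
        e.symm.toLinearMap)) w j
      simp only [h] at h1
      rw [← h2] at h1
      exact h1
    simpa using e.injective (hh (e 1))
  have hfinR : FiniteDimensional F (D ⊗[F] K) := FiniteDimensional.of_injective mulL hinj
  have hfinD : FiniteDimensional F D :=
    FiniteDimensional.of_injective
      ((Algebra.TensorProduct.includeLeft (R := F) (S := F) (A := D) (B := K)).toLinearMap)
      (Algebra.TensorProduct.includeLeft_injective (R := F) (S := F) (A := D)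
        (algebraMap F K).injective)
  refine ⟨hfinD, ?_⟩
  have h1 := LinearMap.finrank_le_finrank_of_injective hinj
  rw [Module.finrank_tensorProduct, Module.finrank_pi_fintype, Finset.sum_const,
    Module.finrank_pi_fintype, Finset.sum_const, Finset.card_univ, Fintype.card_fin, hKdim, hm,
    smul_eq_mul, smul_eq_mul] at h1
  have h4 := minpoly.natDegree_pos hint
  have h5 : finrank F D ≤ f.natDegree * f.natDegree := Nat.le_of_mul_le_mul_right
    (h1.trans (le_of_eq (by ring))) h4
  exact h5.trans (by rw [pow_two]; exact Nat.mul_le_mul hn hn)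

end Vale.Agent.P199.Norm
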