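import Vale.Agent.P199.Norm.Simple

/-!
Descent of modules along a cyclic automorphism of prime order.
-/

open TensorProduct Module

universe u

namespace Vale.Agent.P199.Norm

variable {F D : Type u} [Field F] [DivisionRing D] [Algebra F D]

/-- Every finite module over the scalar extension to `L'` has `q` times the dimension of one over
the scalar extension to `L`. -/
def Desc (F D : Type u) [Field F] [DivisionRing D] [Algebra F D] (q : ℕ) (L L' : Type u)
    [Field L] [Algebra F L] [Field L'] [Algebra F L'] : Prop :=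
  ∀ (U : Type u) [AddCommGroup U] [Module D U] [Module (D ⊗[F] L') U]
    [IsScalarTower D (D ⊗[F] L') U] [FiniteDimensional D U],
    ∃ (W : Type u) (_ : AddCommGroup W) (_ : Module D W) (_ : Module (D ⊗[F] L) W)
      (_ : IsScalarTower D (D ⊗[F] L) W) (_ : FiniteDimensional D W),
      finrank D U = q * finrank D W

theorem Desc.trans {q r : ℕ} {L L' L'' : Type u} [Field L] [Algebra F L] [Field L'] [Algebra F L']
    [Field L''] [Algebra F L''] (h : Desc F D q L' L'') (h' : Desc F D r L L') :
    Desc F D (q * r) L L'' := by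
  intro U _ _ _ _ _
  obtain ⟨V, i1, i2, i3, i4, i5, e⟩ := h U
  obtain ⟨W, j1, j2, j3, j4, j5, e'⟩ := h' V
  exact ⟨W, j1, j2, j3, j4, j5, by rw [e, e', mul_assoc]⟩

variable {L L' : Type u} [Field L] [Algebra F L] [Field L'] [Algebra F L']

/-- Scalar extension of a homomorphism of fields. -/
noncomputable def ext (j : L →ₐ[F] L') : D ⊗[F] L →ₐ[F] D ⊗[F] L' :=
  Algebra.TensorProduct.map (AlgHom.id F D) j

theorem ext_smul (j : L →ₐ[F] L') (d : D) (r : D ⊗[F] L) :
    ext j (d • r) = d • ext j r := by
  induction r using TensorProduct.induction_on with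
  | zero => simp
  | tmul a l => simp [ext, TensorProduct.smul_tmul']
  | add a c ha hc => simp only [smul_add, map_add, ha, hc]

theorem Desc.of_hom (j : L →ₐ[F] L') : Desc F D 1 L L' := by
  intro U _ _ _ _ _
  let _ : Module (D ⊗[F] L) U := Module.compHom U (ext j).toRingHom
  have : IsScalarTower D (D ⊗[F] L) U := ⟨fun d r u => by
    change ext j (d • r) • u = d • (ext j r • u)
    rw [ext_smul, smul_assoc]⟩
  exact ⟨U, inferInstance, inferInstance, inferInstance, this, inferInstance, (one_mul _).symm⟩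

/-- Dual families for an automorphism of prime order. -/
theorem exists_dual {p : ℕ} (hp : p.Prime) (σ : L' ≃ₐ[F] L') (hσ : σ ^ p = 1) (hne : σ ≠ 1) :
    ∃ b c : Fin p → L', (∀ j : Fin p, ∑ i, b i * (σ ^ (j : ℕ)) (c i) = if (j : ℕ) = 0 then 1 else 0)
      ∧ ∀ k i : Fin p, ∑ j : Fin p, (σ ^ (j : ℕ)) (c k * b i) = if k = i then 1 else 0 := by
  classical
  have : NeZero p := ⟨hp.ne_zero⟩
  obtain ⟨θ, hθ⟩ : ∃ θ, σ θ ≠ θ := by
    by_contra h
    push Not at h
    exact hne (AlgEquiv.ext h)
  have hmod : ∀ n : ℕ, σ ^ n = σ ^ (n % p) := fun n => by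
    conv_lhs => rw [← Nat.mod_add_div n p, pow_add, pow_mul, hσ, one_pow, mul_one]
  have hinj : Function.Injective fun j : Fin p => (σ ^ (j : ℕ)) θ := by
    let St : Subgroup (L' ≃ₐ[F] L') :=
      { carrier := {g | g θ = θ}
        one_mem' := rfl
        mul_mem' := fun {a b} ha hb => by
          change a (b θ) = θ
          rw [show b θ = θ from hb]; exact ha
        inv_mem' := fun {a} ha => by
          change a.symm θ = θ
          conv_lhs => rw [← (show a θ = θ from ha), AlgEquiv.symm_apply_apply] }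
    have key : ∀ d : ℕ, d < p → σ ^ d ∈ St → d = 0 := by
      intro d hd hmem
      by_contra hd0
      have hc : d.Coprime p := (Nat.coprime_of_lt_prime hd0 hd hp).symm
      obtain ⟨m, -, hm⟩ := Nat.exists_mul_mod_eq_one_of_coprime hc hp.one_lt
      have h1 : (σ ^ d) ^ m ∈ St := pow_mem hmem m
      rw [← pow_mul, hmod, hm, pow_one] at h1
      exact hθ h1
    intro a b hab
    wlog hle : (a : ℕ) ≤ b generalizing a b
    · exact (this hab.symm (le_of_not_ge hle)).symm
    refine Fin.ext (hle.antisymm (Nat.le_of_sub_eq_zero ?_))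
    refine key _ (by omega) ?_
    change (σ ^ ((b : ℕ) - a)) θ = θ
    apply (σ ^ (a : ℕ)).injective
    rw [← AlgEquiv.mul_apply, ← pow_add, Nat.add_sub_cancel' hle]
    exact hab.symm
  let Y : Matrix (Fin p) (Fin p) L' := Matrix.vandermonde fun j => (σ ^ (j : ℕ)) θ
  have hY : IsUnit Y.det := isUnit_iff_ne_zero.mpr (Matrix.det_vandermonde_ne_zero_iff.mpr hinj)
  let b : Fin p → L' := fun i => θ ^ (i : ℕ)
  let c : Fin p → L' := fun i => Y⁻¹ i 0
  have hbY : ∀ j i, Y j i = (σ ^ (j : ℕ)) (b i) := fun j i => by simp [Y, b, Matrix.vandermonde_apply]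
  have h0 : ∀ m : Fin p, ∑ i, (σ ^ (m : ℕ)) (b i) * c i = if m = 0 then 1 else 0 := by
    intro m
    have := congrFun (congrFun (Matrix.mul_nonsing_inv Y hY) m) 0
    simp only [Matrix.mul_apply, Matrix.one_apply, hbY] at this
    exact this
  let X : Matrix (Fin p) (Fin p) L' := Matrix.of fun k j => (σ ^ (j : ℕ)) (c k)
  have hYX : Y * X = 1 := by
    ext m j
    simp only [Matrix.mul_apply, X, Matrix.of_apply, hbY, Matrix.one_apply]
    have := congrArg (σ ^ (j : ℕ)) (h0 (m - j))
    simp only [map_sum, map_mul, apply_ite (σ ^ (j : ℕ)), map_one, map_zero, sub_eq_zero,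
      ← AlgEquiv.mul_apply, ← pow_add] at this
    rw [← this]
    refine Finset.sum_congr rfl fun i _ => ?_
    rw [hmod ((j : ℕ) + ((m - j : Fin p) : ℕ)), ← Fin.val_add, add_sub_cancel]
  have hXY : X * Y = 1 := mul_eq_one_comm.mp hYX
  refine ⟨b, c, fun j => ?_, fun k i => ?_⟩
  · have := congrFun (congrFun hYX 0) j
    simp only [Matrix.mul_apply, X, Matrix.of_apply, hbY, Matrix.one_apply, Fin.val_zero, pow_zero,
      AlgEquiv.one_apply] at this
    rw [this]
    by_cases h : (j : ℕ) = 0
    · have h' : (0 : Fin p) = j := Fin.ext (by simp [h])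
      simp [h, h']
    · have h' : (0 : Fin p) ≠ j := fun e => h (by simp [← e])
      simp [h, h']
  · have := congrFun (congrFun hXY k) i
    simp only [Matrix.mul_apply, X, Matrix.of_apply, hbY, Matrix.one_apply, ← map_mul] at this
    exact this

/-- Semilinear automorphisms of order `p` descend. -/
theorem descend_semilinear {p : ℕ} (hp : p.Prime) (σ : L' ≃ₐ[F] L') (hσ : σ ^ p = 1)
    (hne : σ ≠ 1) (j : L →ₐ[F] L') (hj : ∀ x, σ (j x) = j x) (U : Type u) [AddCommGroup U]
    [Module D U] [Module (D ⊗[F] L') U] [IsScalarTower D (D ⊗[F] L') U] [FiniteDimensional D U]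
    (T : U →+ U) (hT : ∀ (r : D ⊗[F] L') u, T (r • u) = ext σ.toAlgHom r • T u) (hTp : ∀ u, T^[p] u = u) :
    ∃ (W : Type u) (_ : AddCommGroup W) (_ : Module D W) (_ : Module (D ⊗[F] L) W)
      (_ : IsScalarTower D (D ⊗[F] L) W) (_ : FiniteDimensional D W),
      finrank D U = p * finrank D W := by
  classical
  have : NeZero p := ⟨hp.ne_zero⟩
  obtain ⟨b, c, hbc, hcb⟩ := exists_dual hp σ hσ hne
  have hTD : ∀ (d : D) u, T (d • u) = d • T u := fun d u => by
    rw [← smul_one_smul (D ⊗[F] L') d u, hT, ext_smul, map_one, smul_one_smul]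
  let ι : L' → D ⊗[F] L' := fun x => (1 : D) ⊗ₜ[F] x
  have hTsum : ∀ (n : ℕ) (f : Fin p → U), T^[n] (∑ i, f i) = ∑ i, T^[n] (f i) := by
    intro n f
    induction n with
    | zero => simp
    | succ n ih => simp only [Function.iterate_succ_apply', ih, map_sum]
  have hιT : ∀ (n : ℕ) x u, T^[n] (ι x • u) = ι ((σ ^ n) x) • T^[n] u := by
    intro n
    induction n with
    | zero => simp
    | succ n ih =>
      intro x u
      rw [Function.iterate_succ_apply', ih, hT, Function.iterate_succ_apply', pow_succ',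
        AlgEquiv.mul_apply]
      simp [ι, ext]
  have hιD : ∀ (d : D) x (u : U), ι x • (d • u) = d • (ι x • u) := fun d x u => by
    rw [← smul_one_smul (D ⊗[F] L') d u, ← mul_smul, ← smul_one_smul (D ⊗[F] L') d (ι x • u), ← mul_smul]
    congr 1
    simp [ι, Algebra.TensorProduct.one_def, TensorProduct.smul_tmul']
  let _ : Module (D ⊗[F] L) U := Module.compHom U (ext j).toRingHom
  have : IsScalarTower D (D ⊗[F] L) U := ⟨fun d r u => by
    change ext j (d • r) • u = d • (ext j r • u)
    rw [ext_smul, smul_assoc]⟩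
  have hfix : ∀ r : D ⊗[F] L, ext σ.toAlgHom (ext j r) = ext j r := by
    intro r
    induction r using TensorProduct.induction_on with
    | zero => simp
    | tmul a l => simp [ext, hj]
    | add a c ha hc => simp only [map_add, ha, hc]
  let W : Submodule (D ⊗[F] L) U :=
    { carrier := {u | T u = u}
      add_mem' := fun {a b} ha hb => by
        change T (a + b) = a + b
        rw [map_add, show T a = a from ha, show T b = b from hb]
      zero_mem' := map_zero T
      smul_mem' := fun r u hu => by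
        change T (ext j r • u) = ext j r • u
        rw [hT, hfix, show T u = u from hu] }
  have hWit : ∀ (n : ℕ) (w : W), T^[n] (w : U) = w := fun n w => Function.iterate_fixed w.2 n
  have hWfin : FiniteDimensional D W :=
    (inferInstance : FiniteDimensional D (W.restrictScalars D))
  let Φ : (Fin p → W) →ₗ[D] U :=
    { toFun := fun w => ∑ i, ι (b i) • (w i : U)
      map_add' := fun w w' => by simp [smul_add, Finset.sum_add_distrib]
      map_smul' := fun d w => by
        simp [Finset.smul_sum, hιD] }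
  let Ψ : U → Fin p → U := fun v k => ∑ n : Fin p, T^[(n : ℕ)] (ι (c k) • v)
  have hΨ : ∀ v k, Ψ v k ∈ W := by
    intro v k
    change T (Ψ v k) = Ψ v k
    simp only [Ψ, map_sum]
    refine Fintype.sum_equiv (Equiv.addRight (1 : Fin p)) _ _ fun n => ?_
    simp only [Equiv.coe_addRight, Fin.val_add, ← Function.iterate_succ_apply' T]
    have hmodT : ∀ (m : ℕ) u, T^[m] u = T^[m % p] u := fun m u => by
      conv_lhs => rw [← Nat.mod_add_div m p, Function.iterate_add_apply, Function.iterate_mul,
        show T^[p] = id from funext hTp, Function.iterate_id, id]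
    rw [hmodT, Fin.val_one', Nat.add_mod_mod]
  have hright : ∀ v, Φ (fun k => ⟨Ψ v k, hΨ v k⟩) = v := by
    intro v
    change ∑ i, ι (b i) • Ψ v i = v
    simp only [Ψ, Finset.smul_sum, hιT, ← mul_smul]
    rw [Finset.sum_comm]
    have : ∀ n : Fin p, ∑ i, (ι (b i) * ι ((σ ^ (n : ℕ)) (c i))) • T^[(n : ℕ)] v
        = ι (if (n : ℕ) = 0 then 1 else 0) • T^[(n : ℕ)] v := fun n => by
      rw [← Finset.sum_smul, ← hbc n]
      simp [ι, TensorProduct.tmul_sum]
    rw [Finset.sum_congr rfl fun n _ => this n, Finset.sum_eq_single (0 : Fin p)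
      (fun n _ hn => by
        have hn' : (n : ℕ) ≠ 0 := fun h => hn (Fin.ext h)
        simp [ι, hn']) (by simp)]
    simp [ι, ← Algebra.TensorProduct.one_def]
  have hleft : ∀ w k, Ψ (Φ w) k = w k := by
    intro w k
    change ∑ n : Fin p, T^[(n : ℕ)] (ι (c k) • ∑ i, ι (b i) • (w i : U)) = _
    simp only [Finset.smul_sum, ← mul_smul]
    have : ∀ (n : Fin p), T^[(n : ℕ)] (∑ i, (ι (c k) * ι (b i)) • (w i : U))
        = ∑ i, ι ((σ ^ (n : ℕ)) (c k * b i)) • (w i : U) := fun n => by
      rw [hTsum]
      refine Finset.sum_congr rfl fun i _ => ?_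
      rw [show ι (c k) * ι (b i) = ι (c k * b i) by simp [ι], hιT, hWit]
    rw [Finset.sum_congr rfl fun n _ => this n, Finset.sum_comm]
    have h2 : ∀ i, ∑ n : Fin p, ι ((σ ^ (n : ℕ)) (c k * b i)) • (w i : U)
        = ι (if k = i then 1 else 0) • (w i : U) := fun i => by
      rw [← Finset.sum_smul, ← hcb k i]
      simp [ι, TensorProduct.tmul_sum]
    rw [Finset.sum_congr rfl fun i _ => h2 i, Finset.sum_eq_single k
      (fun i _ hi => by simp [ι, Ne.symm hi]) (by simp)]
    simp [ι, ← Algebra.TensorProduct.one_def]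
  have hΦ : Function.Bijective Φ :=
    ⟨fun w w' h => funext fun k => Subtype.ext (by rw [← hleft w k, ← hleft w' k, h]),
      fun v => ⟨_, hright v⟩⟩
  refine ⟨W, inferInstance, inferInstance, inferInstance, inferInstance, hWfin, ?_⟩
  rw [← (LinearEquiv.ofBijective Φ hΦ).finrank_eq, Module.finrank_pi_fintype, Finset.sum_const,
    Finset.card_univ, Fintype.card_fin, smul_eq_mul]

end Vale.Agent.P199.Norm
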