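import Vale.Agent.P199.Norm.Step

/-!
Sylow descent: degrees of separable elements of a central algebraic division algebra are
bounded by the degree of an extension of the centre with surjective norms.
-/

open TensorProduct Module Polynomial

universe u

namespace Vale.Agent.P199.Norm

variable {F D : Type u} [Field F] [DivisionRing D] [Algebra F D] [Algebra.IsCentral F D]

theorem desc_pgroup {L0 : Type u} [Field L0] [Algebra F L0] (hN : NormHyp L0)
    (hA : ∀ (m : ℕ) (T : Module.End D (Fin m → D)), IsAlgebraic F T)
    {N : Type u} [Field N] [Algebra F N] [FiniteDimensional F N] [Algebra L0 N]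
    [IsScalarTower F L0 N] [FiniteDimensional L0 N] [IsGalois L0 N]
    {p : ℕ} [hp : Fact p.Prime] :
    ∀ (n : ℕ) (H : Subgroup (N ≃ₐ[L0] N)), Nat.card H = p ^ n →
      Desc F D (p ^ n) (IntermediateField.fixedField H) N := by
  intro n
  induction n with
  | zero => intro H _; exact Desc.of_hom ((IntermediateField.fixedField H).val.restrictScalars F)
  | succ n ih =>
    intro H hH
    obtain ⟨K', hK'⟩ := Sylow.exists_subgroup_card_pow_prime p
      (G := H) (n := n) (hH ▸ pow_dvd_pow p n.le_succ)
    have hidx : K'.index = p := by
      have := K'.card_mul_index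
      rw [hK', hH, pow_succ] at this
      exact Nat.eq_of_mul_eq_mul_left (pow_pos hp.out.pos n) this
    have hnorm : K'.Normal := Subgroup.normal_of_index_eq_minFac_card (by
      rw [hidx, hH, Nat.Prime.pow_minFac hp.out (by omega)])
    set K := K'.map H.subtype with hK
    have hKcard : Nat.card K = p ^ n := by
      rw [hK, Subgroup.card_map_of_injective H.subtype_injective, hK']
    obtain ⟨⟨s, hsH⟩, hs⟩ : ∃ s : H, s ∉ K' := by
      by_contra h
      push Not at h
      have : K' = ⊤ := (Subgroup.eq_top_iff' K').mpr h
      rw [this, Subgroup.index_top] at hidx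
      exact hp.out.one_lt.ne hidx
    set L' := IntermediateField.fixedField K with hL'
    have hmaps : ∀ x ∈ L', s x ∈ L' := by
      intro x hx
      rw [hL', IntermediateField.mem_fixedField_iff] at hx ⊢
      rintro _ ⟨⟨k, hkH⟩, hk, rfl⟩
      have h1 := hnorm.conj_mem _ hk ⟨s⁻¹, inv_mem hsH⟩
      have h2 := hx _ ⟨_, h1, rfl⟩
      change k (s x) = s x
      have h3 : (s⁻¹ * k * s) x = x := by simpa using h2
      calc k (s x) = (s * (s⁻¹ * k * s)) x := by
            rw [← mul_assoc, ← mul_assoc, mul_inv_cancel, one_mul, AlgEquiv.mul_apply]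
        _ = s x := by rw [AlgEquiv.mul_apply, h3]
    let σ₀ : L' →ₐ[F] L' :=
      { toFun := fun x => ⟨s x, hmaps x x.2⟩
        map_one' := Subtype.ext (map_one s)
        map_mul' := fun _ _ => Subtype.ext (map_mul s _ _)
        map_zero' := Subtype.ext (map_zero s)
        map_add' := fun _ _ => Subtype.ext (map_add s _ _)
        commutes' := fun c => Subtype.ext (by
          change s (algebraMap F N c) = algebraMap F N c
          rw [IsScalarTower.algebraMap_apply F L0 N, s.commutes]) }
    have : FiniteDimensional F L' := FiniteDimensional.of_injective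
      (L'.val.restrictScalars F).toLinearMap Subtype.val_injective
    have hσinj : Function.Injective σ₀ := σ₀.toRingHom.injective
    let σ : L' ≃ₐ[F] L' := AlgEquiv.ofBijective σ₀
      ⟨hσinj, (LinearMap.injective_iff_surjective (f := σ₀.toLinearMap)).mp hσinj⟩
    have hpow : ∀ (m : ℕ) (x : L'), (((σ ^ m) x : L') : N) = (s ^ m) x := by
      intro m
      induction m with
      | zero => simp
      | succ m ih =>
        intro x
        rw [pow_succ', pow_succ', AlgEquiv.mul_apply, AlgEquiv.mul_apply, ← ih]
        rfl
    have hσp : σ ^ p = 1 := AlgEquiv.ext fun x => Subtype.ext (by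
      rw [hpow, AlgEquiv.one_apply]
      have hmem := Subgroup.pow_index_mem K' ⟨s, hsH⟩
      rw [hidx] at hmem
      exact (IntermediateField.mem_fixedField_iff K _).mp x.2 _ ⟨_, hmem, rfl⟩)
    have hσne : σ ≠ 1 := fun h => hs (by
      have h1 : s ∈ (L').fixingSubgroup := by
        rw [IntermediateField.mem_fixingSubgroup_iff]
        intro x hx
        exact congrArg Subtype.val (AlgEquiv.congr_fun h ⟨x, hx⟩)
      rw [hL', IntermediateField.fixingSubgroup_fixedField] at h1
      obtain ⟨t, ht, hts⟩ := h1
      have : t = ⟨s, hsH⟩ := Subtype.ext hts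
      exact this ▸ ht)
    have hle : IntermediateField.fixedField H ≤ L' := by
      intro x hx
      rw [IntermediateField.mem_fixedField_iff] at hx
      rw [hL', IntermediateField.mem_fixedField_iff]
      rintro _ ⟨k, -, rfl⟩
      exact hx _ k.2
    have hj : ∀ x, σ (IntermediateField.inclusion hle x) = IntermediateField.inclusion hle x :=
      fun x => Subtype.ext ((IntermediateField.mem_fixedField_iff H _).mp x.2 s hsH)
    have := (ih K hKcard).trans
      (desc_step (L := IntermediateField.fixedField H) (L' := L') hN hA hp.out σ hσp hσne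
        ((IntermediateField.inclusion hle).restrictScalars F) hj
        ((Algebra.ofId L0 L').restrictScalars F) fun x => Subtype.ext (s.commutes x))
    rwa [pow_succ]

theorem natDegree_le [Algebra.IsAlgebraic F D] {L : Type u} [Field L] [Algebra F L]
    [FiniteDimensional F L] (hN : NormHyp L)
    (hA : ∀ (m : ℕ) (T : Module.End D (Fin m → D)), IsAlgebraic F T) (a : D)
    (hsep : IsSeparable F a) : (minpoly F a).natDegree ≤ finrank F L := by
  classical
  have hint : IsIntegral F a := (Algebra.IsAlgebraic.isAlgebraic a).isIntegral
  set f := minpoly F a with hf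
  let g := f.map (algebraMap F L)
  let N := g.SplittingField
  have : IsGalois L N := IsGalois.of_separable_splitting_field (p := g)
    (Polynomial.Separable.map (f := algebraMap F L) hsep)
  have : FiniteDimensional F N := FiniteDimensional.trans F L N
  obtain ⟨α, hα⟩ : ∃ α : N, aeval α f = 0 := by
    have hs : (g.map (algebraMap L N)).Splits := Polynomial.SplittingField.splits g
    obtain ⟨α, hα⟩ := hs.exists_eval_eq_zero (by
      rw [degree_map, degree_map]; exact (minpoly.degree_pos hint).ne')
    refine ⟨α, ?_⟩
    rwa [Polynomial.map_map, ← IsScalarTower.algebraMap_eq, eval_map,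
      ← aeval_def] at hα
  have : Fact (Irreducible f) := ⟨minpoly.irreducible hint⟩
  let K := AdjoinRoot f
  have hKdim : finrank F K = f.natDegree := by
    rw [(AdjoinRoot.powerBasis (minpoly.ne_zero hint)).finrank, AdjoinRoot.powerBasis_dim]
  let φ : K →ₐ[F] D := Ideal.Quotient.liftₐ _ (aeval a) fun r hr => by
    obtain ⟨q, rfl⟩ := Ideal.mem_span_singleton.mp hr
    rw [map_mul, show aeval a f = 0 from minpoly.aeval F a, zero_mul]
  let j : K →ₐ[F] N := Ideal.Quotient.liftₐ _ (aeval α) fun r hr => by
    obtain ⟨q, rfl⟩ := Ideal.mem_span_singleton.mp hr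
    rw [map_mul, hα, zero_mul]
  let _ : Algebra K N := j.toRingHom.toAlgebra
  have : IsScalarTower F K N := IsScalarTower.of_algebraMap_eq fun c => (j.commutes c).symm
  have : FiniteDimensional K N := Module.Finite.of_restrictScalars_finite F K N
  let q := finrank K N
  let b := Module.finBasis K N
  let V := Fin q → D
  let gN : N →ₐ[F] Module.End F V :=
    { toFun := fun x =>
        { toFun := fun v i => ∑ k, v k * φ (Algebra.leftMulMatrix b x k i)
          map_add' := fun v w => funext fun i => by
            change ∑ k, (v k + w k) * φ (Algebra.leftMulMatrix b x k i) =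
              ∑ k, v k * φ (Algebra.leftMulMatrix b x k i) +
                ∑ k, w k * φ (Algebra.leftMulMatrix b x k i)
            simp [add_mul, Finset.sum_add_distrib]
          map_smul' := fun c v => funext fun i => by
            change ∑ k, (c • v k) * φ (Algebra.leftMulMatrix b x k i) =
              c • ∑ k, v k * φ (Algebra.leftMulMatrix b x k i)
            simp [Finset.smul_sum] }
      map_one' := LinearMap.ext fun v => funext fun i => by
        simp [Matrix.one_apply, apply_ite φ]
      map_mul' := fun x y => LinearMap.ext fun v => funext fun i => by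
        change ∑ k, v k * φ (Algebra.leftMulMatrix b (x * y) k i) =
          ∑ l, (∑ k, v k * φ (Algebra.leftMulMatrix b y k l)) * φ (Algebra.leftMulMatrix b x l i)
        rw [mul_comm x y]
        simp only [map_mul, Matrix.mul_apply, map_sum, Finset.mul_sum, Finset.sum_mul, mul_assoc]
        exact Finset.sum_comm
      map_zero' := LinearMap.ext fun v => funext fun i => by
        change ∑ k, v k * φ (Algebra.leftMulMatrix b 0 k i) = 0
        simp
      map_add' := fun x y => LinearMap.ext fun v => funext fun i => by
        change ∑ k, v k * φ (Algebra.leftMulMatrix b (x + y) k i) =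
          ∑ k, v k * φ (Algebra.leftMulMatrix b x k i) + ∑ k, v k * φ (Algebra.leftMulMatrix b y k i)
        simp [mul_add, Finset.sum_add_distrib]
      commutes' := fun c => LinearMap.ext fun v => funext fun i => by
        change ∑ k, v k * φ (Algebra.leftMulMatrix b (algebraMap F N c) k i) = c • v i
        rw [IsScalarTower.algebraMap_apply F K N, AlgHom.commutes]
        simp [Matrix.algebraMap_matrix_apply, apply_ite φ, Algebra.smul_def,
          Algebra.commutes] }
  have hcomm : ∀ (d : D) x, Commute (Algebra.lsmul F F V d) (gN x) := fun d x =>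
    LinearMap.ext fun v => funext fun i => by
      change d * ∑ k, v k * φ (Algebra.leftMulMatrix b x k i) =
        ∑ k, (d * v k) * φ (Algebra.leftMulMatrix b x k i)
      simp [Finset.mul_sum, mul_assoc]
  let ρ : D ⊗[F] N →ₐ[F] Module.End F V :=
    Algebra.TensorProduct.lift (Algebra.lsmul F F V) gN hcomm
  let _ : Module (D ⊗[F] N) V := Module.compHom V ρ.toRingHom
  have : IsScalarTower D (D ⊗[F] N) V := ⟨fun d r v => by
    change ρ (d • r) v = d • ρ r v
    induction r using TensorProduct.induction_on with
    | zero => simp
    | tmul c x => simp [ρ, TensorProduct.smul_tmul', mul_smul]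
    | add c e hc he => simp only [smul_add, map_add, LinearMap.add_apply, hc, he]⟩
  have hVdim : finrank D V = q := by simp [V]
  have hdvd : finrank L N ∣ q := by
    rw [← IsGalois.card_aut_eq_finrank L N, ← hVdim]
    refine (Nat.dvd_iff_prime_pow_dvd_dvd _ _).mpr fun p k hp hk => ?_
    have : Fact p.Prime := ⟨hp⟩
    obtain ⟨H, hH⟩ := Sylow.exists_subgroup_card_pow_prime p hk
    obtain ⟨W, _, _, _, _, _, hW⟩ := desc_pgroup hN hA k H hH V
    exact hW ▸ dvd_mul_right _ _
  have hqpos : 0 < q := Module.finrank_pos
  have h1 : finrank F L * finrank L N = finrank F N := Module.finrank_mul_finrank F L N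
  have h2 : finrank F K * q = finrank F N := Module.finrank_mul_finrank F K N
  have h3 := Nat.le_of_dvd hqpos hdvd
  rw [hKdim] at h2
  have h4 : f.natDegree * q ≤ finrank F L * q := by
    rw [h2, ← h1]; exact Nat.mul_le_mul_left _ h3
  exact Nat.le_of_mul_le_mul_right h4 hqpos

end Vale.Agent.P199.Norm
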