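import Mathlib

/-!
The algebra obtained from a central division algebra by extending scalars is simple Artinian.
-/

open TensorProduct

universe u

namespace Vale.Agent.P199.Norm

variable (F D L : Type u) [Field F] [DivisionRing D] [Algebra F D] [Algebra.IsCentral F D]
  [Field L] [Algebra F L]

theorem isSimpleRing_tensor : IsSimpleRing (D ⊗[F] L) := by
  classical
  refine IsSimpleRing.of_eq_bot_or_eq_top fun I => or_iff_not_imp_left.mpr fun hI => ?_
  let ι := Module.Basis.ofVectorSpaceIndex F L
  let b : Module.Basis ι D (D ⊗[F] L) :=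
    Algebra.TensorProduct.basis D (Module.Basis.ofVectorSpace F L)
  have hbi : ∀ i, b i = (1 : D) ⊗ₜ[F] (Module.Basis.ofVectorSpace F L i) := fun i =>
    Algebra.TensorProduct.basis_apply _ i
  have hmove : ∀ (y : D) (i : ι), b i * (y ⊗ₜ[F] (1 : L)) = (y ⊗ₜ[F] (1 : L)) * b i := fun y i => by
    rw [hbi]; simp
  have hsm : ∀ (y : D) (x : D ⊗[F] L), y • x = (y ⊗ₜ[F] (1 : L)) * x := by
    intro y x
    induction x using TensorProduct.induction_on with
    | zero => simp
    | tmul a l => simp [TensorProduct.smul_tmul']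
    | add a c ha hc => rw [smul_add, mul_add, ha, hc]
  obtain ⟨x, hxI, hx⟩ : ∃ x ∈ I, x ≠ 0 := by
    by_contra hc
    push Not at hc
    exact hI (TwoSidedIdeal.ext fun x => by
      simpa [TwoSidedIdeal.mem_bot] using ⟨hc x, fun h => h ▸ zero_mem I⟩)
  induction hn : (b.repr x).support.card using Nat.strong_induction_on generalizing x with
  | _ n ih =>
  have hsupp : (b.repr x).support.Nonempty := by
    rw [Finsupp.support_nonempty_iff]
    exact fun h => hx (b.repr.map_eq_zero_iff.mp h)
  obtain ⟨i₀, hi₀⟩ := hsupp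
  have h0 : b.repr x i₀ ≠ 0 := Finsupp.mem_support_iff.mp hi₀
  set z := (b.repr x i₀)⁻¹ • x with hz
  have hzI : z ∈ I := by rw [hz, hsm]; exact I.mul_mem_left _ _ hxI
  have hz0 : b.repr z i₀ = 1 := by simp [hz, h0]
  have hzne : z ≠ 0 := fun h => one_ne_zero (α := D) (by simpa [h] using hz0.symm)
  have hzs : (b.repr z).support ⊆ (b.repr x).support := by
    rw [hz, map_smul]; exact Finsupp.support_smul
  have hrepr : ∀ (y : D) i, b.repr (z * (y ⊗ₜ[F] (1 : L))) i = b.repr z i * y := by
    intro y i
    have : z * (y ⊗ₜ[F] (1 : L)) =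
        Finsupp.linearCombination D b ((b.repr z).mapRange (fun c => c * y) (zero_mul y)) := by
      conv_lhs => rw [← b.linearCombination_repr z]
      rw [Finsupp.linearCombination_apply, Finsupp.linearCombination_apply,
        Finsupp.sum_mapRange_index (fun i => by simp), Finsupp.sum, Finsupp.sum, Finset.sum_mul]
      refine Finset.sum_congr rfl fun j _ => ?_
      rw [hsm, hsm, mul_assoc, hmove, ← mul_assoc]
      simp
    rw [this, b.repr_linearCombination]
    simp
  by_cases hall : ∀ (y : D) i, b.repr z i * y = y * b.repr z i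
  · choose c hc using fun i => Algebra.mem_bot.mp (Algebra.IsCentral.out (K := F)
      (show b.repr z i ∈ Subalgebra.center F D from
        Subalgebra.mem_center_iff.mpr fun y => (hall y i).symm))
    let l : L := ∑ i ∈ (b.repr z).support, c i • Module.Basis.ofVectorSpace F L i
    have hl : z = (1 : D) ⊗ₜ[F] l := by
      conv_lhs => rw [← b.linearCombination_repr z]
      rw [Finsupp.linearCombination_apply, Finsupp.sum, tmul_sum]
      refine Finset.sum_congr rfl fun i _ => ?_
      rw [← hc i, algebraMap_smul, hbi, ← tmul_smul]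
    have hl0 : l ≠ 0 := fun h => hzne (by rw [hl, h, tmul_zero])
    apply eq_top_iff.mpr
    intro w _
    have h1 : (1 : D ⊗[F] L) ∈ I := by
      have := I.mul_mem_left ((1 : D) ⊗ₜ[F] l⁻¹) _ hzI
      rwa [hl, Algebra.TensorProduct.tmul_mul_tmul, one_mul, inv_mul_cancel₀ hl0,
        ← Algebra.TensorProduct.one_def] at this
    simpa using I.mul_mem_left w _ h1
  · push Not at hall
    obtain ⟨y, i, hyi⟩ := hall
    set w := z * (y ⊗ₜ[F] (1 : L)) - (y ⊗ₜ[F] (1 : L)) * z with hw
    have hwI : w ∈ I := sub_mem (I.mul_mem_right _ _ hzI) (I.mul_mem_left _ _ hzI)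
    have hwr : ∀ j, b.repr w j = b.repr z j * y - y * b.repr z j := fun j => by
      rw [hw, ← hsm]; simp [hrepr]
    refine ih (b.repr w).support.card ?_ w hwI (fun h => ?_) rfl
    · rw [← hn]
      refine Finset.card_lt_card (Finset.ssubset_iff_subset_ne.mpr ⟨fun j hj => ?_, fun e => ?_⟩)
      · refine hzs (Finsupp.mem_support_iff.mpr fun h => ?_)
        exact Finsupp.mem_support_iff.mp hj (by rw [hwr, h]; simp)
      · exact Finsupp.mem_support_iff.mp (e ▸ hi₀) (by rw [hwr, hz0]; simp)
    · exact hyi (sub_eq_zero.mp (by rw [← hwr, h]; simp))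

omit [Algebra.IsCentral F D] in
theorem isArtinianRing_tensor [FiniteDimensional F L] : IsArtinianRing (D ⊗[F] L) :=
  IsArtinianRing.of_finite D _

theorem isSemisimpleRing_tensor [FiniteDimensional F L] : IsSemisimpleRing (D ⊗[F] L) :=
  have := isSimpleRing_tensor F D L
  IsSimpleRing.isSemisimpleRing_iff_isArtinianRing.mpr (isArtinianRing_tensor F D L)

end Vale.Agent.P199.Norm
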