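import Vale.Agent.P199.Norm.Descent

/-!
The descent step: a twisting map of a simple module, normalised by a norm equation.
-/

open TensorProduct Module

universe u

namespace Vale.Agent.P199.Norm

/-- Every element fixed by an automorphism of prime order of a finite extension is the product of
the conjugates of some element. -/
def NormHyp (F : Type u) [Field F] : Prop :=
  ∀ (E : Type u) [Field E] [Algebra F E], FiniteDimensional F E → ∀ (τ : E ≃ₐ[F] E) (p : ℕ),
    p.Prime → τ ^ p = 1 → τ ≠ 1 → ∀ z, τ z = z → ∃ y, ∏ i ∈ Finset.range p, (τ ^ i) y = z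

variable {F D : Type u} [Field F] [DivisionRing D] [Algebra F D] [Algebra.IsCentral F D]

/-- The descent step for a simple module. -/
theorem step_simple {L0 : Type u} [Field L0] [Algebra F L0] (hN : NormHyp L0)
    (hA : ∀ (m : ℕ) (T : Module.End D (Fin m → D)), IsAlgebraic F T)
    {L L' : Type u} [Field L] [Algebra F L] [Field L'] [Algebra F L'] [FiniteDimensional F L']
    {p : ℕ} (hp : p.Prime) (σ : L' ≃ₐ[F] L') (hσ : σ ^ p = 1) (hne : σ ≠ 1)
    (j : L →ₐ[F] L') (hj : ∀ x, σ (j x) = j x) (ι₀ : L0 →ₐ[F] L')
    (hι₀ : ∀ x, σ (ι₀ x) = ι₀ x) (U : Type u) [AddCommGroup U] [Module D U]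
    [Module (D ⊗[F] L') U] [IsScalarTower D (D ⊗[F] L') U] [FiniteDimensional D U]
    [IsSimpleModule (D ⊗[F] L') U] :
    ∃ (W : Type u) (_ : AddCommGroup W) (_ : Module D W) (_ : Module (D ⊗[F] L) W)
      (_ : IsScalarTower D (D ⊗[F] L) W) (_ : FiniteDimensional D W),
      finrank D U = p * finrank D W := by
  classical
  have := isSimpleRing_tensor F D L'
  have := isSemisimpleRing_tensor F D L'
  have : Nontrivial U := IsSimpleModule.nontrivial (D ⊗[F] L') U
  let σR : D ⊗[F] L' →ₐ[F] D ⊗[F] L' := ext σ.toAlgHom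
  let σI : D ⊗[F] L' →ₐ[F] D ⊗[F] L' := ext σ.symm.toAlgHom
  have hIσ : ∀ r, σR (σI r) = r := fun r => by
    induction r using TensorProduct.induction_on with
    | zero => simp
    | tmul a l => simp [σR, σI, ext]
    | add a c ha hc => simp only [map_add, ha, hc]
  have hσI : ∀ r, σI (σR r) = r := fun r => by
    induction r using TensorProduct.induction_on with
    | zero => simp
    | tmul a l => simp [σR, σI, ext]
    | add a c ha hc => simp only [map_add, ha, hc]
  -- a twisting map
  obtain ⟨T, hT⟩ : ∃ T : U ≃+ U, ∀ (r : D ⊗[F] L') u, T (r • u) = σR r • T u := by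
    obtain ⟨I, ⟨f⟩⟩ :=
      IsSemisimpleRing.exists_linearEquiv_ideal_of_isSimpleModule (D ⊗[F] L') U
    have : IsSimpleModule (D ⊗[F] L') I := IsSimpleModule.congr f.symm
    have : Nontrivial I := IsSimpleModule.nontrivial (D ⊗[F] L') I
    obtain ⟨i₀, hi₀⟩ := exists_ne (0 : I)
    have : Nontrivial (AddMonoid.End U) := by
      obtain ⟨v, hv⟩ := exists_ne (0 : U)
      exact ⟨⟨1, 0, fun h => hv (DFunLike.congr_fun h v)⟩⟩
    have hact : Function.Injective (Module.toAddMonoidEnd (D ⊗[F] L') U) := RingHom.injective _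
    obtain ⟨u₀, hu₀⟩ : ∃ u, σR (i₀ : D ⊗[F] L') • u ≠ (0 : U) := by
      by_contra h
      push Not at h
      refine hi₀ (Subtype.ext ?_)
      have h0 : σR (i₀ : D ⊗[F] L') = 0 := hact (by
        refine AddMonoidHom.ext fun u => ?_
        rw [map_zero]
        exact h u)
      simpa [hσI] using congrArg σI h0
    let g : I →+ U :=
      { toFun := fun i => σR (i : D ⊗[F] L') • u₀
        map_zero' := by simp
        map_add' := fun a b => by simp [add_smul] }
    have hg : ∀ (r : D ⊗[F] L') (i : I), g (r • i) = σR r • g i := fun r i => by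
      simp [g, mul_smul]
    have ginj : Function.Injective g := by
      rw [injective_iff_map_eq_zero]
      intro i hi
      let K : Submodule (D ⊗[F] L') I :=
        { carrier := {i | g i = 0}
          add_mem' := fun {a b} ha hb => by
            change g (a + b) = 0
            rw [map_add, show g a = 0 from ha, show g b = 0 from hb, add_zero]
          zero_mem' := map_zero g
          smul_mem' := fun r a ha => by
            change g (r • a) = 0
            rw [hg, show g a = 0 from ha, smul_zero] }
      rcases eq_bot_or_eq_top K with hK | hK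
      · have : i ∈ K := hi
        rw [hK] at this
        exact (Submodule.mem_bot _).mp this
      · exact absurd (show i₀ ∈ K by rw [hK]; trivial) hu₀
    have gsurj : Function.Surjective g := by
      let K : Submodule (D ⊗[F] L') U :=
        { carrier := Set.range g
          add_mem' := fun {a b} ⟨x, hx⟩ ⟨y, hy⟩ => ⟨x + y, by rw [map_add, hx, hy]⟩
          zero_mem' := ⟨0, map_zero g⟩
          smul_mem' := fun r a ⟨x, hx⟩ => ⟨σI r • x, by rw [hg, hIσ, hx]⟩ }
      rcases eq_bot_or_eq_top K with hK | hK
      · have : g i₀ ∈ K := ⟨i₀, rfl⟩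
        rw [hK] at this
        exact absurd ((Submodule.mem_bot _).mp this) hu₀
      · intro v
        exact (show v ∈ K by rw [hK]; trivial)
    refine ⟨f.toAddEquiv.trans (AddEquiv.ofBijective g ⟨ginj, gsurj⟩), fun r u => ?_⟩
    change g (f (r • u)) = σR r • g (f u)
    rw [map_smul, hg]
  let _ : Module F U := Module.compHom U (algebraMap F (D ⊗[F] L'))
  have : IsScalarTower F (D ⊗[F] L') U := ⟨fun c r u => by
    change (c • r) • u = algebraMap F (D ⊗[F] L') c • r • u
    rw [Algebra.smul_def, mul_smul]⟩
  have : SMulCommClass (D ⊗[F] L') F U := ⟨fun r c u => by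
    change r • algebraMap F (D ⊗[F] L') c • u = algebraMap F (D ⊗[F] L') c • r • u
    rw [← mul_smul, ← Algebra.commutes, mul_smul]⟩
  have hTF : ∀ (c : F) u, T (c • u) = c • T u := fun c u => by
    change T (algebraMap F (D ⊗[F] L') c • u) = algebraMap F (D ⊗[F] L') c • T u
    rw [hT, σR.commutes]
  let C := Module.End (D ⊗[F] L') U
  have hTs : ∀ (r : D ⊗[F] L') u, T.symm (r • u) = σI r • T.symm u := fun r u =>
    T.injective (by rw [hT, hIσ, T.apply_symm_apply, T.apply_symm_apply])
  -- central scalars
  have hcen : ∀ (x : L') (r : D ⊗[F] L'), ((1 : D) ⊗ₜ[F] x) * r = r * ((1 : D) ⊗ₜ[F] x) := by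
    intro x r
    induction r using TensorProduct.induction_on with
    | zero => simp
    | tmul a l => simp [mul_comm x l]
    | add a c ha hc => rw [mul_add, add_mul, ha, hc]
  let ψ : L' →ₐ[F] C :=
    { toFun := fun x =>
        { toFun := fun u => ((1 : D) ⊗ₜ[F] x) • u
          map_add' := smul_add _
          map_smul' := fun r u => by rw [← mul_smul, hcen, mul_smul, RingHom.id_apply] }
      map_one' := by ext u; simp [← Algebra.TensorProduct.one_def]
      map_mul' := fun x y => by
        refine LinearMap.ext fun u => ?_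
        change ((1 : D) ⊗ₜ[F] (x * y)) • u = ((1 : D) ⊗ₜ[F] x) • ((1 : D) ⊗ₜ[F] y) • u
        rw [← mul_smul, Algebra.TensorProduct.tmul_mul_tmul, mul_one]
      map_zero' := by ext u; simp
      map_add' := fun x y => by
        refine LinearMap.ext fun u => ?_
        change ((1 : D) ⊗ₜ[F] (x + y)) • u = ((1 : D) ⊗ₜ[F] x) • u + ((1 : D) ⊗ₜ[F] y) • u
        rw [TensorProduct.tmul_add, add_smul]
      commutes' := fun c => by
        ext u
        change ((1 : D) ⊗ₜ[F] algebraMap F L' c) • u = algebraMap F (D ⊗[F] L') c • u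
        congr 1
        exact ((Algebra.TensorProduct.includeRight (R := F) (A := D)).commutes c) }
  have hTit : ∀ (n : ℕ) (r : D ⊗[F] L') u,
      T^[n] (r • u) = ext (σ ^ n).toAlgHom r • T^[n] u := by
    intro n
    induction n with
    | zero =>
      intro r u
      have e : ext (σ ^ 0).toAlgHom r = r := by
        induction r using TensorProduct.induction_on with
        | zero => simp
        | tmul a l => simp [ext]
        | add a c ha hc => rw [map_add, ha, hc]
      rw [e]
      simp
    | succ n ih =>
      intro r u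
      rw [Function.iterate_succ_apply', ih, hT, Function.iterate_succ_apply']
      congr 1
      induction r using TensorProduct.induction_on with
      | zero => simp
      | tmul a l => simp [σR, ext, pow_succ']
      | add a c ha hc => simp only [map_add, ha, hc]
  let S : C :=
    { toFun := T^[p]
      map_add' := fun a b => iterate_map_add T p a b
      map_smul' := fun r u => by
        rw [hTit, hσ, RingHom.id_apply]
        congr 1
        induction r using TensorProduct.induction_on with
        | zero => simp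
        | tmul a l => simp [ext]
        | add a c ha hc => rw [map_add, ha, hc] }
  have hSne : S ≠ 0 := fun h => by
    obtain ⟨v, hv⟩ := exists_ne (0 : U)
    obtain ⟨w, rfl⟩ := (T.surjective.iterate p) v
    exact hv (by simpa [S] using LinearMap.congr_fun h w)
  -- S is algebraic
  have hSalg : IsAlgebraic F S := by
    have : IsScalarTower F D U := ⟨fun c d u => by
      change (c • d) • u = algebraMap F (D ⊗[F] L') c • d • u
      rw [← smul_one_smul (D ⊗[F] L') (c • d) u, ← smul_one_smul (D ⊗[F] L') d u, ← mul_smul,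
        ← Algebra.smul_def, smul_assoc c d]⟩
    have : SMulCommClass D F U := ⟨fun d c u => by
      change d • algebraMap F (D ⊗[F] L') c • u = algebraMap F (D ⊗[F] L') c • d • u
      rw [← smul_one_smul (D ⊗[F] L') d u, ← mul_smul, Algebra.commutes, mul_smul,
        smul_one_smul]⟩
    let res : C →ₐ[F] Module.End D U :=
      { toFun := fun f => f.restrictScalars D
        map_one' := rfl
        map_mul' := fun _ _ => rfl
        map_zero' := rfl
        map_add' := fun _ _ => rfl
        commutes' := fun _ => rfl }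
    have hres : Function.Injective res := LinearMap.restrictScalars_injective D
    refine (isAlgebraic_algHom_iff res hres).mp ?_
    let e := (Module.finBasis D U).equivFun
    let ce := LinearEquiv.conjAlgEquiv F e
    exact (isAlgebraic_algHom_iff ce.toAlgHom ce.injective).mp (hA _ (ce (res S)))
  have : FiniteDimensional F (Algebra.adjoin F ({S} : Set C)) :=
    Module.Finite.iff_fg.mpr hSalg.isIntegral.fg_adjoin_singleton
  have hcomm : ∀ x (a : Algebra.adjoin F ({S} : Set C)), Commute (ψ x) (a : C) := fun x a => by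
    refine LinearMap.ext fun u => ?_
    change ((1 : D) ⊗ₜ[F] x) • (a : C) u = (a : C) (((1 : D) ⊗ₜ[F] x) • u)
    rw [map_smul]
  let Ψ : L' ⊗[F] Algebra.adjoin F ({S} : Set C) →ₐ[F] C :=
    Algebra.TensorProduct.lift ψ (Algebra.adjoin F ({S} : Set C)).val hcomm
  let M := Ψ.range
  have hMfin : FiniteDimensional F M := Module.Finite.of_surjective Ψ.rangeRestrict.toLinearMap
    Ψ.rangeRestrict_surjective
  have hΨt : ∀ (a : L') (b : Algebra.adjoin F ({S} : Set C)), Ψ (a ⊗ₜ b) = ψ a * (b : C) :=
    fun a b => Algebra.TensorProduct.lift_tmul _ _ _ _ _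
  have hψM : ∀ x, ψ x ∈ M := fun x => ⟨x ⊗ₜ 1, by
    change Ψ _ = _
    rw [hΨt, OneMemClass.coe_one, mul_one]⟩
  have hSM : S ∈ M := ⟨1 ⊗ₜ ⟨S, Algebra.self_mem_adjoin_singleton F S⟩, by
    change Ψ _ = _
    rw [hΨt, map_one, one_mul]⟩
  have hMcomm : ∀ a b : M, a * b = b * a := by
    rintro ⟨_, x, rfl⟩ ⟨_, y, rfl⟩
    refine Subtype.ext ?_
    change Ψ x * Ψ y = Ψ y * Ψ x
    rw [← map_mul, ← map_mul]
    congr 1
    induction x using TensorProduct.induction_on with
    | zero => simp
    | tmul a b =>
      induction y using TensorProduct.induction_on with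
      | zero => simp
      | tmul a' b' =>
        have hb : b * b' = b' * b := by
          have hle : Algebra.adjoin F ({S} : Set C) ≤ Subalgebra.centralizer F {(b' : C)} := by
            refine Algebra.adjoin_le (Set.singleton_subset_iff.mpr ?_)
            refine (Subalgebra.mem_centralizer_iff F).mpr ?_
            rintro g rfl
            exact (Algebra.commute_of_mem_adjoin_singleton_of_commute b'.2 (Commute.refl S)).symm
          exact Subtype.ext ((((Subalgebra.mem_centralizer_iff F).mp (hle b.2)) _ rfl).symm)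
        rw [Algebra.TensorProduct.tmul_mul_tmul, Algebra.TensorProduct.tmul_mul_tmul, hb,
          mul_comm a]
      | add c d hc hd => rw [mul_add, add_mul, hc, hd]
    | add c d hc hd => rw [add_mul, mul_add, hc, hd]
  let _ : CommRing M := { (inferInstance : Ring M) with mul_comm := hMcomm }
  let _ : Field M := fieldOfFiniteDimensional F M
  -- conjugation
  let conj : C →ₐ[F] C :=
    { toFun := fun c =>
        { toFun := fun u => T (c (T.symm u))
          map_add' := fun a b => by simp
          map_smul' := fun r u => by rw [hTs, map_smul, hT, hIσ, RingHom.id_apply] }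
      map_one' := LinearMap.ext fun u => T.apply_symm_apply u
      map_mul' := fun a b => LinearMap.ext fun u => by
        change T (a (b (T.symm u))) = T (a (T.symm (T (b (T.symm u)))))
        rw [T.symm_apply_apply]
      map_zero' := LinearMap.ext fun u => map_zero T
      map_add' := fun a b => LinearMap.ext fun u => map_add T _ _
      commutes' := fun c => by
        ext u
        change T (c • T.symm u) = c • u
        rw [hTF, T.apply_symm_apply] }
  have hconjψ : ∀ x, conj (ψ x) = ψ (σ x) := fun x => by
    ext u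
    change T (((1 : D) ⊗ₜ[F] x) • T.symm u) = ((1 : D) ⊗ₜ[F] σ x) • u
    rw [hT, T.apply_symm_apply]
    simp [σR, ext]
  have hconjS : conj S = S := by
    ext u
    change T (T^[p] (T.symm u)) = T^[p] u
    rw [← Function.iterate_succ_apply' T, Function.iterate_succ_apply, T.apply_symm_apply]
  have hconjM : ∀ m ∈ M, conj m ∈ M := by
    rintro _ ⟨x, rfl⟩
    induction x using TensorProduct.induction_on with
    | zero => simp
    | tmul a b =>
      change conj (Ψ (a ⊗ₜ b)) ∈ M
      rw [hΨt, map_mul, hconjψ]
      refine mul_mem (hψM _) ?_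
      have hle : Algebra.adjoin F ({S} : Set C) ≤ M.comap conj :=
        Algebra.adjoin_le (Set.singleton_subset_iff.mpr (show conj S ∈ M by rw [hconjS]; exact hSM))
      exact hle b.2
    | add c d hc hd =>
      change conj (Ψ c) ∈ M at hc
      change conj (Ψ d) ∈ M at hd
      change conj (Ψ (c + d)) ∈ M
      rw [map_add, map_add]; exact add_mem hc hd
  let τ₀ : M →ₐ[F] M := (conj.comp M.val).codRestrict M fun m => hconjM m m.2
  have hτinj : Function.Injective τ₀ := τ₀.toRingHom.injective
  let τ : M ≃ₐ[F] M := AlgEquiv.ofBijective τ₀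
    ⟨hτinj, (LinearMap.injective_iff_surjective (f := τ₀.toLinearMap)).mp hτinj⟩
  have hτ : ∀ (m : M) u, ((τ m : M) : C) (T u) = T ((m : C) u) := fun m u => by
    change T ((m : C) (T.symm (T u))) = _
    rw [T.symm_apply_apply]
  have hτn : ∀ (n : ℕ) (m : M) u, T^[n] ((m : C) u) = (((τ ^ n) m : M) : C) (T^[n] u) := by
    intro n
    induction n with
    | zero => simp
    | succ n ih =>
      intro m u
      rw [Function.iterate_succ_apply', ih, ← hτ, Function.iterate_succ_apply', pow_succ',
        AlgEquiv.mul_apply]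
  have hτp : τ ^ p = 1 := by
    refine AlgEquiv.ext fun m => Subtype.ext (LinearMap.ext fun v => ?_)
    obtain ⟨w, rfl⟩ := (T.surjective.iterate p) v
    rw [← hτn p m w, AlgEquiv.one_apply]
    exact LinearMap.congr_fun (congrArg Subtype.val (hMcomm ⟨S, hSM⟩ m)) w
  have hψinj : Function.Injective ψ := ψ.toRingHom.injective
  have hτne : τ ≠ 1 := fun h => hne (AlgEquiv.ext fun x => hψinj (by
    rw [← hconjψ]
    exact congrArg Subtype.val (AlgEquiv.congr_fun h ⟨ψ x, hψM x⟩)))
  have hτS : τ (⟨S, hSM⟩ : M) = ⟨S, hSM⟩ := Subtype.ext hconjS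
  have hSne' : (⟨S, hSM⟩ : M) ≠ 0 := fun h => hSne (congrArg Subtype.val h)
  let ψM : L0 →ₐ[F] M := (ψ.comp ι₀).codRestrict M fun x => hψM _
  let _ : Algebra L0 M := ψM.toRingHom.toAlgebra
  have : IsScalarTower F L0 M := IsScalarTower.of_algebraMap_eq fun c => (ψM.commutes c).symm
  let τ' : M ≃ₐ[L0] M := AlgEquiv.ofRingEquiv (f := τ.toRingEquiv) fun x => Subtype.ext (by
    change conj (ψ (ι₀ x)) = ψ (ι₀ x)
    rw [hconjψ, hι₀])
  have hτ' : ∀ (n : ℕ) (m : M), (τ' ^ n) m = (τ ^ n) m := by
    intro n
    induction n with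
    | zero => intro m; rfl
    | succ n ih =>
      intro m
      rw [pow_succ', pow_succ', AlgEquiv.mul_apply, AlgEquiv.mul_apply, ih]
      rfl
  obtain ⟨y, hy'⟩ := hN M (Module.Finite.of_restrictScalars_finite F L0 M) τ' p hp
    (AlgEquiv.ext fun m => by rw [hτ', hτp]; rfl)
    (fun h => hτne (AlgEquiv.ext fun m => AlgEquiv.congr_fun h m))
    (⟨S, hSM⟩ : M)⁻¹ (by change τ (⟨S, hSM⟩ : M)⁻¹ = _; rw [map_inv₀, hτS])
  have hy : ∏ i ∈ Finset.range p, (τ ^ i) y = (⟨S, hSM⟩ : M)⁻¹ := by
    rw [← hy']; exact Finset.prod_congr rfl fun i _ => (hτ' i y).symm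
  let T' : U →+ U := (y : C).toAddMonoidHom.comp T.toAddMonoidHom
  have hT' : ∀ (r : D ⊗[F] L') u, T' (r • u) = ext σ.toAlgHom r • T' u := fun r u => by
    change (y : C) (T (r • u)) = ext σ.toAlgHom r • (y : C) (T u)
    rw [hT, map_smul]
  have hT'n : ∀ (n : ℕ) u,
      T'^[n] u = (((∏ i ∈ Finset.range n, (τ ^ i) y : M)) : C) (T^[n] u) := by
    intro n
    induction n with
    | zero => intro u; rfl
    | succ n ih =>
      intro u
      rw [Function.iterate_succ_apply', ih]
      change (y : C) (T _) = _
      rw [← hτ, Function.iterate_succ_apply', Finset.prod_range_succ', pow_zero,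
        AlgEquiv.one_apply, map_prod]
      simp only [← AlgEquiv.mul_apply, ← pow_succ']
      rw [hMcomm _ y]
      rfl
  refine descend_semilinear hp σ hσ hne j hj U T' hT' fun u => ?_
  rw [hT'n, hy]
  exact LinearMap.congr_fun (congrArg Subtype.val (inv_mul_cancel₀ hSne')) u

/-- The descent step for all finite modules. -/
theorem desc_step {L0 : Type u} [Field L0] [Algebra F L0] (hN : NormHyp L0)
    (hA : ∀ (m : ℕ) (T : Module.End D (Fin m → D)), IsAlgebraic F T)
    {L L' : Type u} [Field L] [Algebra F L] [Field L'] [Algebra F L'] [FiniteDimensional F L']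
    {p : ℕ} (hp : p.Prime) (σ : L' ≃ₐ[F] L') (hσ : σ ^ p = 1) (hne : σ ≠ 1)
    (j : L →ₐ[F] L') (hj : ∀ x, σ (j x) = j x) (ι₀ : L0 →ₐ[F] L')
    (hι₀ : ∀ x, σ (ι₀ x) = ι₀ x) : Desc F D p L L' := by
  intro U _ _ _ _ _
  have := isSimpleRing_tensor F D L'
  have := isSemisimpleRing_tensor F D L'
  have := isArtinianRing_tensor F D L'
  rcases subsingleton_or_nontrivial U with h | h
  · refine ⟨Fin 0 → D ⊗[F] L, inferInstance, inferInstance, inferInstance, inferInstance,
      inferInstance, ?_⟩
    rw [Module.finrank_zero_of_subsingleton, Module.finrank_zero_of_subsingleton, mul_zero]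
  have : Module.Finite (D ⊗[F] L') U := Module.Finite.of_restrictScalars_finite D _ _
  obtain ⟨k, -, Q, hQ, ⟨e⟩⟩ := (IsSimpleRing.isIsotypic (D ⊗[F] L') U).linearEquiv_fun
  have : FiniteDimensional D Q := (inferInstance : FiniteDimensional D (Q.restrictScalars D))
  obtain ⟨W, i1, i2, i3, i4, i5, hW⟩ := step_simple hN hA hp σ hσ hne j hj ι₀ hι₀ Q
  refine ⟨Fin k → W, inferInstance, inferInstance, inferInstance, inferInstance, inferInstance, ?_⟩
  rw [(e.restrictScalars D).finrank_eq, Module.finrank_pi_fintype, Module.finrank_pi_fintype,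
    Finset.sum_const, Finset.sum_const, hW, smul_eq_mul, smul_eq_mul]
  ring

end Vale.Agent.P199.Norm
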